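import Crest.Agent.KE2.Univ

/-! The completely positive approximation property of the Cuntz algebra, in concrete form. -/

set_option autoImplicit false
open Filter Topology
open scoped InnerProductSpace
open Crest.AnalysisR.CStarEmbedding

namespace Crest.Agent.KE2
namespace CP

lemma sum_succ {M : Type*} [AddCommMonoid M] (l : ℕ) (F : List Bool → M) :
    ∑ f : Fin (l + 1) → Bool, F (List.ofFn f) =
      ∑ f : Fin l → Bool, (F (true :: List.ofFn f) + F (false :: List.ofFn f)) := by
  rw [← (Fin.consEquiv fun _ => Bool).sum_comp, Fintype.sum_prod_type, Finset.sum_comm]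
  simp [Fin.consEquiv, List.ofFn_succ]

lemma cnt (m a b : ℕ) : |((∑ k : Fin (m + 1), ∑ l : Fin (m + 1),
    if (k : ℕ) + b = l + a then 1 else 0 : ℕ) : ℝ) - (m + 1)| ≤ a + b := by
  rw [Fin.sum_univ_eq_sum_range (fun k => ∑ l : Fin (m + 1), if k + b = l + a then 1 else 0)]
  have h1 : ∀ k, (∑ l : Fin (m + 1), if k + b = l + a then 1 else 0) =
      if a ≤ k + b ∧ k + b ≤ m + a then 1 else 0 := fun k => by
    split_ifs with h
    · rw [Finset.sum_eq_single ⟨k + b - a, by omega⟩ (fun l _ hl => if_neg fun h' => hl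
        (Fin.ext (by simp; omega))) (by simp), if_pos (by simp; omega)]
    · exact Finset.sum_eq_zero fun l _ => if_neg (by have := l.2; omega)
  simp only [h1]
  rw [← Finset.card_filter]
  have h2 := Finset.card_filter_le (Finset.range (m + 1)) fun k => a ≤ k + b ∧ k + b ≤ m + a
  have h3 : (Finset.Ico a (m + 1 - b)).card ≤
      ((Finset.range (m + 1)).filter fun k => a ≤ k + b ∧ k + b ≤ m + a).card :=
    Finset.card_le_card fun k hk => by simp at hk ⊢; omega
  rw [Finset.card_range] at h2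
  rw [Nat.card_Ico] at h3
  generalize ((Finset.range (m + 1)).filter fun k => a ≤ k + b ∧ k + b ≤ m + a).card = c at h2 h3
  have h4 : m + 1 ≤ c + (a + b) := by omega
  rw [abs_le]
  constructor
  · have : ((m + 1 : ℕ) : ℝ) ≤ (c + (a + b) : ℕ) := by exact_mod_cast h4
    push_cast at this ⊢; linarith
  · have : (c : ℝ) ≤ (m + 1 : ℕ) := by exact_mod_cast h2
    push_cast at this ⊢; linarith [show (0 : ℝ) ≤ a + b by positivity]

variable {O : Type} [CStarAlgebra O] (s : Bool → O)

/-- The isometry attached to a word. -/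
def sw (μ : List Bool) : O := (μ.map s).prod

@[simp] lemma sw_nil : sw s [] = 1 := rfl
@[simp] lemma sw_cons (i : Bool) (μ : List Bool) : sw s (i :: μ) = s i * sw s μ := by simp [sw]

lemma sum_sw (h2 : s true * star (s true) + s false * star (s false) = 1) (l : ℕ) :
    ∑ f : Fin l → Bool, sw s (List.ofFn f) * star (sw s (List.ofFn f)) = 1 := by
  induction l with
  | zero => simp
  | succ l ih =>
    rw [sum_succ l fun μ => sw s μ * star (sw s μ), Finset.sum_add_distrib, ← h2]
    congr 1 <;> simp only [sw_cons, star_mul, mul_assoc, ← Finset.mul_sum] <;>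
      simp only [← mul_assoc, ← Finset.sum_mul, ih, one_mul]

/-- Index set: words of length between `m` and `2m`. -/
abbrev I (m : ℕ) := Σ k : Fin (m + 1), Fin (m + k) → Bool

lemma word_inj (m : ℕ) : Function.Injective fun x : I m => List.ofFn x.2 := by
  rintro ⟨k, f⟩ ⟨l, g⟩ h
  have : k = l := Fin.ext (by simpa using congrArg List.length h)
  subst this
  have : f = g := List.ofFn_injective h
  rw [this]

variable {H : Type} [NormedAddCommGroup H] [InnerProductSpace ℂ H] [CompleteSpace H]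
  (π : O →⋆ₐ[ℂ] (H →L[ℂ] H)) (ξ : H)

/-- One block of the approximating map. -/
noncomputable def Φ (k l : ℕ) (x : O) : O := ∑ f : Fin k → Bool, ∑ g : Fin l → Bool,
  ⟪π (sw s (List.ofFn f)) ξ, π x (π (sw s (List.ofFn g)) ξ)⟫_ℂ •
    (sw s (List.ofFn f) * star (sw s (List.ofFn g)))

lemma Φ_add (k l : ℕ) (x y : O) : Φ s π ξ k l (x + y) = Φ s π ξ k l x + Φ s π ξ k l y := by
  simp only [Φ, map_add, add_apply, inner_add_right, add_smul,
    Finset.sum_add_distrib]

lemma Φ_smul (k l : ℕ) (c : ℂ) (x : O) : Φ s π ξ k l (c • x) = c • Φ s π ξ k l x := by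
  simp only [Φ, map_smul, smul_apply, inner_smul_right, mul_smul,
    Finset.smul_sum]

variable (h1 : ∀ i j, star (s i) * s j = if i = j then 1 else 0)
include h1

lemma Φ_left (k l : ℕ) (i : Bool) (x : O) : Φ s π ξ (k + 1) l (s i * x) = s i * Φ s π ξ k l x := by
  unfold Φ
  rw [sum_succ k fun μ => ∑ g : Fin l → Bool, ⟪π (sw s μ) ξ, π (s i * x)
    (π (sw s (List.ofFn g)) ξ)⟫_ℂ • (sw s μ * star (sw s (List.ofFn g))), Finset.mul_sum]
  refine Finset.sum_congr rfl fun f _ => ?_
  have : ∀ j u v, ⟪π (s j * sw s (List.ofFn f)) u, π (s i * x) v⟫_ℂ =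
      if j = i then ⟪π (sw s (List.ofFn f)) u, π x v⟫_ℂ else 0 := fun j u v => by
    rw [← NAI.rep_mul, NAI.inner_rep_left π (s j), NAI.rep_mul, ← mul_assoc, h1]
    split_ifs <;> simp
  cases i <;> simp [-map_mul, this, Finset.mul_sum, mul_assoc]

lemma Φ_right (k l : ℕ) (i : Bool) (x : O) :
    Φ s π ξ k (l + 1) (x * star (s i)) = Φ s π ξ k l x * star (s i) := by
  unfold Φ
  rw [Finset.sum_mul]
  refine Finset.sum_congr rfl fun f _ => ?_
  rw [sum_succ l fun μ => ⟪π (sw s (List.ofFn f)) ξ, π (x * star (s i)) (π (sw s μ) ξ)⟫_ℂ •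
    (sw s (List.ofFn f) * star (sw s μ)), Finset.sum_mul]
  refine Finset.sum_congr rfl fun g _ => ?_
  have : ∀ j y v, π (x * star (s i)) (π (s j * y) v) = if i = j then π x (π y v) else 0 :=
    fun j y v => by
      rw [NAI.rep_mul, NAI.rep_mul, mul_assoc, ← mul_assoc (star _), h1]
      split_ifs <;> simp
  cases i <;> simp [-map_mul, this, mul_assoc]

lemma Φ_word (h2 : s true * star (s true) + s false * star (s false) = 1)
    (ho : Orthonormal ℂ fun μ => π (sw s μ) ξ) (μ ν : List Bool) (k l : ℕ) :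
    Φ s π ξ (k + μ.length) (l + ν.length) (sw s μ * star (sw s ν)) =
      if k = l then sw s μ * star (sw s ν) else 0 := by
  induction μ with
  | cons i μ ih =>
    rw [List.length_cons, ← add_assoc, sw_cons, mul_assoc, Φ_left s π ξ h1, ih]
    split_ifs <;> simp
  | nil =>
    induction ν with
    | cons i ν ih =>
      rw [List.length_cons, ← add_assoc, sw_cons, star_mul, ← mul_assoc, Φ_right s π ξ h1, ih]
      split_ifs <;> simp
    | nil =>
      simp only [Φ, List.length_nil, add_zero, sw_nil, star_one, mul_one, map_one,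
        one_apply_eq_self, orthonormal_iff_ite.1 ho]
      split_ifs with h
      · subst h
        simp [List.ofFn_injective.eq_iff, sum_sw s h2]
      · exact Finset.sum_eq_zero fun f _ => Finset.sum_eq_zero fun g _ => by
          rw [if_neg fun e => h (by simpa using congrArg List.length e), zero_smul]

lemma mem_span {x : O} (hx : x ∈ StarAlgebra.adjoin ℂ {s true, s false}) :
    x ∈ Submodule.span ℂ (Set.range fun p : List Bool × List Bool => sw s p.1 * star (sw s p.2)) := by
  set M := Submodule.span ℂ (Set.range fun p : List Bool × List Bool => sw s p.1 * star (sw s p.2))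
  have key : ∀ y : O, (∀ μ ν, y * (sw s μ * star (sw s ν)) ∈ M) → ∀ z ∈ M, y * z ∈ M :=
    fun y hy z hz => (Submodule.span_le (p := M.comap (LinearMap.mulLeft ℂ y))).2
      (by rintro _ ⟨p, rfl⟩; exact hy _ _) hz
  have a1 : ∀ i, ∀ z ∈ M, s i * z ∈ M := fun i => key _ fun μ ν =>
    Submodule.subset_span ⟨(i :: μ, ν), by simp [mul_assoc]⟩
  have a2 : ∀ i, ∀ z ∈ M, star (s i) * z ∈ M := fun i => key _ fun μ ν => by
    cases μ with
    | nil => exact Submodule.subset_span ⟨([], ν ++ [i]), by simp [sw]⟩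
    | cons j μ =>
      rw [sw_cons, ← mul_assoc, ← mul_assoc, h1]
      split_ifs
      · exact Submodule.subset_span ⟨(μ, ν), by simp⟩
      · simp
  have : ∀ z ∈ M, x * z ∈ M := by
    have hx' : x ∈ Algebra.adjoin ℂ ({s true, s false} ∪ star {s true, s false}) := hx
    clear hx
    induction hx' using Algebra.adjoin_induction with
    | mem y hy =>
      rcases hy with (rfl | rfl) | h | h
      · exact a1 _
      · exact a1 _
      · rw [← star_star y, show star y = s true from h]; exact a2 _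
      · rw [← star_star y, show star y = s false from h]; exact a2 _
    | algebraMap c => intro z hz; rw [← Algebra.smul_def]; exact M.smul_mem _ hz
    | add y y' _ _ h h' => intro z hz; rw [add_mul]; exact M.add_mem (h z hz) (h' z hz)
    | mul y y' _ _ h h' => intro z hz; rw [mul_assoc]; exact h _ (h' z hz)
  simpa using this 1 (Submodule.subset_span ⟨([], []), by simp⟩)

omit h1 [CompleteSpace H] in
lemma norm_compress {J : Type} [Fintype J] [DecidableEq J] {v : J → H} (hv : Orthonormal ℂ v)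
    (T : H →L[ℂ] H) :
    ‖Matrix.toEuclideanCLM (n := J) (𝕜 := ℂ) (Matrix.of fun i j => ⟪v i, T (v j)⟫_ℂ)‖ ≤ ‖T‖ := by
  refine ContinuousLinearMap.opNorm_le_bound _ (norm_nonneg _) fun y => ?_
  have e1 : ‖∑ j, y j • v j‖ = ‖y‖ := by
    rw [EuclideanSpace.norm_eq, norm_eq_sqrt_re_inner (𝕜 := ℂ), hv.inner_sum]
    simp [Complex.conj_mul', ← Complex.ofReal_pow]
  have e2 := hv.sum_inner_products_le (T (∑ j, y j • v j)) (s := Finset.univ)
  rw [EuclideanSpace.norm_eq, ← e1]
  refine Real.sqrt_le_iff.2 ⟨by positivity, le_trans (le_of_eq ?_) (e2.trans ?_)⟩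
  · simp [Matrix.mulVec, dotProduct, inner_sum, inner_smul_right, mul_comm]
  · gcongr; exact T.le_opNorm _

end CP

open CP in
theorem cpap' {O : Type} [CStarAlgebra O] {s₁ s₂ : O} (h : IsCuntzTwo O s₁ s₂) {ι : Type}
    [Fintype ι] (a : ι → O) {ε : ℝ} (hε : 0 < ε) :
    ∃ (J : Type) (_ : Fintype J) (_ : DecidableEq J) (w : J → O) (c : ι → Matrix J J ℂ),
      ∑ μ, w μ * star (w μ) = 1 ∧ (∀ i, ‖Matrix.toEuclideanCLM (𝕜 := ℂ) (c i)‖ ≤ ‖a i‖) ∧
      ∀ i, ‖a i - ∑ μ, ∑ ν, c i μ ν • (w μ * star (w ν))‖ ≤ ε := by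
  obtain ⟨k1, k2, k3, k4, k5⟩ := h
  let s : Bool → O := fun i => cond i s₁ s₂
  have k6 : star s₁ * s₂ = 0 := by
    have : star s₁ * s₂ * star (star s₁ * s₂) = 0 := by
      rw [star_mul, star_star, mul_assoc, ← mul_assoc s₂, eq_sub_of_add_eq' k3, sub_mul, one_mul,
        mul_assoc, k1, mul_one, sub_self, mul_zero]
    exact (CStarRing.mul_star_self_eq_zero_iff _).1 this
  have h1 : ∀ i j, star (s i) * s j = if i = j then 1 else 0 := by
    have k7 : star s₂ * s₁ = 0 := by simpa using congrArg star k6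
    rintro (_ | _) (_ | _) <;> simp [s, k1, k2, k6, k7]
  obtain ⟨H, _, _, _, b, t, ho, t1, t2, t3⟩ := exists_graded
  obtain ⟨π, p1, p2⟩ := k5 _ (t true) (t false) (t1 _) (t1 _) t2
  have hπ : ∀ i, π (s i) = t i := by rintro (_ | _); exacts [p2, p1]
  let idx : List Bool → ℕ := fun μ => μ.foldr Nat.bit 0
  have hv : ∀ μ, π (sw s μ) (b 0) = b (idx μ, μ.length) := fun μ => by
    induction μ with
    | nil => simp [idx]; rfl
    | cons i μ ih => rw [sw_cons, ← NAI.rep_mul, ih, hπ, t3]; simp [idx]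
  have hinj : Function.Injective fun μ : List Bool => (idx μ, (μ.length : ℤ)) := by
    intro μ
    induction μ with
    | nil => intro ν h; exact (List.length_eq_zero_iff.1 (by simpa using (Prod.ext_iff.1 h).2.symm)).symm
    | cons i μ ih =>
      rintro (_ | ⟨j, ν⟩) h
      · have := (Prod.ext_iff.1 h).2
        simp at this; omega
      · obtain ⟨e1, e2⟩ := Prod.ext_iff.1 h
        have e3 : i = j ∧ idx μ = idx ν := by
          change Nat.bit i (idx μ) = Nat.bit j (idx ν) at e1
          cases i <;> cases j <;> simp [Nat.bit] at e1 ⊢ <;> omega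
        rw [e3.1, ih (Prod.ext e3.2 (by simpa using e2))]
  have ho' : Orthonormal ℂ fun μ => π (sw s μ) (b 0) := by
    simp only [hv]; exact ho.comp _ hinj
  let Ψ : ℕ → O →ₗ[ℂ] O := fun m =>
    { toFun := fun x => ((m : ℂ) + 1)⁻¹ • ∑ k : Fin (m + 1), ∑ l : Fin (m + 1),
        Φ s π (b 0) (m + k) (m + l) x
      map_add' := fun x y => by simp only [Φ_add, Finset.sum_add_distrib, smul_add]
      map_smul' := fun c x => by
        simp only [Φ_smul, ← Finset.smul_sum, smul_comm c, RingHom.id_apply] }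
  have hΨ : ∀ x ∈ StarAlgebra.adjoin ℂ {s₁, s₂}, Tendsto (fun m => Ψ m x) atTop (𝓝 x) := by
    intro x hx
    have hx' := mem_span s h1 hx
    clear hx
    induction hx' using Submodule.span_induction with
    | zero => simp
    | add x y _ _ hx hy => simpa using hx.add hy
    | smul c x _ hx => simpa using hx.const_smul c
    | mem x hx =>
      obtain ⟨⟨μ, ν⟩, rfl⟩ := hx
      dsimp only
      have e1 : Tendsto (fun m : ℕ => ((m : ℝ) + 1)⁻¹ * ((∑ k : Fin (m + 1), ∑ l : Fin (m + 1),
          if (k : ℕ) + ν.length = l + μ.length then 1 else 0 : ℕ) : ℝ)) atTop (𝓝 1) := by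
        rw [tendsto_iff_norm_sub_tendsto_zero]
        refine squeeze_zero (fun _ => norm_nonneg _) (fun m => ?_) (by
          simpa using tendsto_one_div_add_atTop_nhds_zero_nat.mul_const
            ((μ.length : ℝ) + ν.length))
        have e0 : ∀ c : ℝ, ((m : ℝ) + 1)⁻¹ * c - 1 = ((m : ℝ) + 1)⁻¹ * (c - (m + 1)) := fun c => by
          rw [mul_sub, inv_mul_cancel₀ (show (m : ℝ) + 1 ≠ 0 by positivity)]
        rw [e0, norm_mul, Real.norm_of_nonneg (by positivity)]
        gcongr; exact cnt m _ _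
      have e2 := (e1.ofReal).smul_const (sw s μ * star (sw s ν))
      rw [Complex.ofReal_one, one_smul] at e2
      refine e2.congr' ?_
      filter_upwards [eventually_ge_atTop (μ.length + ν.length)] with m hm
      have e3 : ∀ k l : Fin (m + 1), Φ s π (b 0) (m + k) (m + l) (sw s μ * star (sw s ν)) =
          ((if (k : ℕ) + ν.length = l + μ.length then 1 else 0 : ℕ) : ℂ) •
            (sw s μ * star (sw s ν)) := fun k l => by
        have := Φ_word s π (b 0) h1 k3 ho' μ ν (m + k - μ.length) (m + l - ν.length)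
        rw [Nat.sub_add_cancel (by omega), Nat.sub_add_cancel (by omega)] at this
        rw [this]
        by_cases h : (k : ℕ) + ν.length = l + μ.length
        · rw [if_pos (by omega), if_pos h]; simp
        · rw [if_neg (by omega), if_neg h]; simp
      simp only [Ψ, LinearMap.coe_mk, AddHom.coe_mk, e3, ← Finset.sum_smul, smul_smul]
      congr 1
      rw [Complex.ofReal_mul, Complex.ofReal_natCast]
      push_cast; rfl
  have hd : ∀ i, ∃ p ∈ StarAlgebra.adjoin ℂ {s₁, s₂}, ‖p‖ ≤ ‖a i‖ ∧ ‖a i - p‖ ≤ ε / 2 := fun i => by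
    have : a i ∈ closure (StarAlgebra.adjoin ℂ {s₁, s₂} : Set O) :=
      (k4 ▸ StarSubalgebra.mem_top : a i ∈ StarSubalgebra.topologicalClosure _)
    obtain ⟨p, hp, hp'⟩ := Metric.mem_closure_iff.1 this (ε / 4) (by positivity)
    rw [dist_eq_norm] at hp'
    have e0 := norm_nonneg (a i)
    have e1 : ‖p‖ ≤ ‖a i‖ + ε / 4 := by linarith [norm_sub_norm_le p (a i), norm_sub_rev p (a i)]
    have e2 : 0 < ‖a i‖ + ε / 4 := by positivity
    refine ⟨((‖a i‖ / (‖a i‖ + ε / 4) : ℝ) : ℂ) • p, SMulMemClass.smul_mem _ hp, ?_, ?_⟩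
    · rw [norm_smul, Complex.norm_real, Real.norm_of_nonneg (by positivity), div_mul_eq_mul_div,
        div_le_iff₀ e2]
      gcongr
    · have : a i - ((‖a i‖ / (‖a i‖ + ε / 4) : ℝ) : ℂ) • p =
          (a i - p) + ((ε / 4 / (‖a i‖ + ε / 4) : ℝ) : ℂ) • p := by
        have : ε / 4 / (‖a i‖ + ε / 4) = 1 - ‖a i‖ / (‖a i‖ + ε / 4) := by field_simp; ring
        rw [this, Complex.ofReal_sub, sub_smul]; simp
      rw [this]
      refine (norm_add_le _ _).trans ?_
      rw [norm_smul, Complex.norm_real, Real.norm_of_nonneg (by positivity), div_mul_eq_mul_div]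
      have : ε / 4 * ‖p‖ / (‖a i‖ + ε / 4) ≤ ε / 4 := by rw [div_le_iff₀ e2]; gcongr
      linarith
  choose p hp1 hp2 hp3 using hd
  obtain ⟨m, hm⟩ := (eventually_all.2 fun i => (hΨ _ (hp1 i)).eventually
    (Metric.closedBall_mem_nhds _ (half_pos hε))).exists
  let r : ℂ := ((√((m : ℝ) + 1))⁻¹ : ℝ)
  have hr : ∀ x y : O, r • x * star (r • y) = ((m : ℂ) + 1)⁻¹ • (x * star y) := fun x y => by
    rw [star_smul, smul_mul_smul_comm]
    congr 1
    simp only [r, Complex.star_def, Complex.conj_ofReal]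
    rw [← Complex.ofReal_mul, ← mul_inv, Real.mul_self_sqrt (by positivity)]; simp
  refine ⟨I m, inferInstance, inferInstance, fun x => r • sw s (List.ofFn x.2), fun i => Matrix.of
    fun x y => ⟪π (sw s (List.ofFn x.2)) (b 0), π (p i) (π (sw s (List.ofFn y.2)) (b 0))⟫_ℂ,
    ?_, fun i => ?_, fun i => ?_⟩
  · simp only [hr, ← Finset.smul_sum, Fintype.sum_sigma, sum_sw s k3, Finset.sum_const,
      Finset.card_univ, Fintype.card_fin]
    rw [← Nat.cast_smul_eq_nsmul ℂ, smul_smul, Nat.cast_succ, inv_mul_cancel₀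
      (Nat.cast_add_one_ne_zero m), one_smul]
  · exact (norm_compress (ho'.comp _ (word_inj m)) _).trans
      ((NonUnitalStarAlgHom.norm_apply_le π _).trans (hp2 i))
  · have e : ∑ x : I m, ∑ y : I m, ⟪π (sw s (List.ofFn x.2)) (b 0),
        π (p i) (π (sw s (List.ofFn y.2)) (b 0))⟫_ℂ • (r • sw s (List.ofFn x.2) *
          star (r • sw s (List.ofFn y.2))) = Ψ m (p i) := by
      simp only [hr, smul_comm _ ((m : ℂ) + 1)⁻¹, ← Finset.smul_sum, Fintype.sum_sigma, Ψ, Φ,
        LinearMap.coe_mk, AddHom.coe_mk]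
      congr 1
      exact Finset.sum_congr rfl fun k _ => Finset.sum_comm
    simp only [Matrix.of_apply]
    rw [e]
    have := hm i
    rw [dist_eq_norm, norm_sub_rev] at this
    linarith [norm_sub_le_norm_sub_add_norm_sub (a i) (p i) (Ψ m (p i)), hp3 i]

theorem cpap {O : Type} [CStarAlgebra O] {s₁ s₂ : O} (h : IsCuntzTwo O s₁ s₂) {ι : Type}
    [Fintype ι] (a : ι → O) {ε : ℝ} (hε : 0 < ε) :
    ∃ (N : ℕ) (w : Fin N → O) (c : ι → Matrix (Fin N) (Fin N) ℂ),
      ∑ μ, w μ * star (w μ) = 1 ∧ (∀ i, ‖Matrix.toEuclideanCLM (𝕜 := ℂ) (c i)‖ ≤ ‖a i‖) ∧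
      ∀ i, ‖a i - ∑ μ, ∑ ν, c i μ ν • (w μ * star (w ν))‖ ≤ ε := by
  obtain ⟨J, _, _, w, c, h1, h2, h3⟩ := cpap' h a hε
  let e := (Fintype.equivFin J).symm
  refine ⟨_, w ∘ e, fun i => (c i).submatrix e e, (e.sum_comp fun μ => w μ * star (w μ)).trans h1,
    fun i => le_trans ?_ (h2 i), fun i => ?_⟩
  · refine ContinuousLinearMap.opNorm_le_bound _ (norm_nonneg _) fun y => ?_
    have := (Matrix.toEuclideanCLM (𝕜 := ℂ) (c i)).le_opNorm (WithLp.toLp 2 (y ∘ e.symm))
    rw [EuclideanSpace.norm_eq, EuclideanSpace.norm_eq, ← e.sum_comp, ← e.sum_comp] at this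
    rw [EuclideanSpace.norm_eq, EuclideanSpace.norm_eq]
    simpa [Matrix.submatrix_mulVec_equiv] using this
  · have := h3 i
    rw [← e.sum_comp] at this
    simp only [← e.sum_comp fun ν => c i _ ν • (w _ * star (w ν))] at this
    exact this

end Crest.Agent.KE2
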