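import Crest.Agent.NAI.Hilb

/-! A spectral gap for four unitaries of order 17 with Heisenberg relations. -/

set_option autoImplicit false
open Filter Topology
open scoped InnerProductSpace ComplexOrder

namespace Crest.Agent.KE2

section avg
variable {C : Type*} [CStarAlgebra C]

/-- Average of the powers. -/
noncomputable def avg (a : C) : C := (17 : ℂ)⁻¹ • ∑ j ∈ Finset.range 17, a ^ j

lemma avg_mul_of {a x : C} (h : a * x = x) : avg a * x = x := by
  have : ∀ j : ℕ, a ^ j * x = x := fun j => by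
    induction j with
    | zero => simp
    | succ j ih => rw [pow_succ, mul_assoc, h, ih]
  rw [avg, smul_mul_assoc, Finset.sum_mul]
  simp only [this, Finset.sum_const, Finset.card_range]
  rw [← Nat.cast_smul_eq_nsmul ℂ, smul_smul]; norm_num

lemma commute_avg {a x : C} (h : Commute x a) : Commute x (avg a) :=
  (Commute.sum_right _ _ _ fun j _ => h.pow_right j).smul_right _

lemma mul_avg {a : C} (h : a ^ 17 = 1) : a * avg a = avg a := by
  have := mul_geom_sum a 17
  rw [h, sub_self, sub_mul, one_mul, sub_eq_zero] at this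
  rw [avg, mul_smul_comm, this]

lemma avg_mul {a : C} (h : a ^ 17 = 1) : avg a * a = avg a := by
  rw [← (commute_avg (Commute.refl a)).eq, mul_avg h]

lemma avg_proj {a : C} (h : a ^ 17 = 1) (hu : star a * a = 1) : IsStarProjection (avg a) := by
  refine ⟨avg_mul_of (mul_avg h), ?_⟩
  have h1 : star a * avg a = avg a := by
    conv_lhs => rw [← mul_avg h, ← mul_assoc, hu, one_mul]
  have h2 : star (avg a) * avg a = avg a := by
    have : star (avg a) = avg (star a) := by simp [avg, star_sum]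
    rw [this, avg_mul_of h1]
  rw [← h2]; exact IsSelfAdjoint.star_mul_self _

/-- The Heisenberg relation. -/
def Heis {Λ : Type*} [Monoid Λ] (a b : Λ) : Prop :=
  ∃ c, c ^ 17 = 1 ∧ Commute c a ∧ Commute c b ∧ a * b = c * b * a

lemma heis_avg {a b c : C} (ha : a ^ 17 = 1) (hc : c ^ 17 = 1) (hca : Commute c a)
    (hcb : Commute c b) (h : a * b = c * b * a) :
    avg a * avg b * avg c = avg b * avg a * avg c ∧
      avg a * avg b * avg a * (1 - avg c) = (17 : ℂ)⁻¹ • (avg a * (1 - avg c)) := by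
  have hEa : Commute (avg c) a := (commute_avg hca.symm).symm
  have hEb : Commute (avg c) b := (commute_avg hcb.symm).symm
  constructor
  · have h1 : a * b * avg c = b * a * avg c := by
      rw [h, mul_assoc c, (hcb.mul_right hca).eq, mul_assoc, mul_avg hc]
    have key : ∀ x y : C, Commute (avg c) x → x * y * avg c = y * x * avg c →
        avg x * y * avg c = y * avg x * avg c := fun x y hx hxy => by
      have : ∀ j : ℕ, x ^ j * y * avg c = y * x ^ j * avg c := fun j => by
        induction j with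
        | zero => simp
        | succ j ih =>
          rw [pow_succ, mul_assoc (x ^ j), mul_assoc (x ^ j), hxy, mul_assoc y, ← hx.eq,
            ← mul_assoc, ← mul_assoc, ih, mul_assoc _ _ x, hx.eq]
          simp only [mul_assoc]
      simp only [avg.eq_def x, smul_mul_assoc, mul_smul_comm, Finset.sum_mul, Finset.mul_sum, this]
    exact (key b _ hEb (key a b hEa h1).symm).symm
  · have h1 : ∀ j : ℕ, a * b ^ j = c ^ j * b ^ j * a := fun j => by
      induction j with
      | zero => simp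
      | succ j ih =>
        rw [pow_succ, ← mul_assoc, ih, mul_assoc _ a, h, pow_succ, mul_assoc (c ^ j) c,
          ← mul_assoc c, (hcb.pow_right j).eq]
        simp only [mul_assoc]
    have h2 : ∀ j ∈ Finset.range 16, avg a * b ^ (j + 1) * avg a * (1 - avg c) = 0 := fun j hj => by
      set Y := avg a * b ^ (j + 1) * avg a with hY
      have e1 : c ^ (j + 1) * Y = Y := by
        conv_rhs => rw [hY, ← avg_mul ha, mul_assoc (avg a), h1, mul_assoc, mul_assoc, mul_assoc,
          avg_mul ha, mul_avg ha, ← mul_assoc, ← (commute_avg (hca.pow_left _)).eq]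
        simp only [hY, mul_assoc]
      have e2 : ∀ n : ℕ, (c ^ (j + 1)) ^ n * Y = Y := fun n => by
        induction n with
        | zero => simp
        | succ n ih => rw [pow_succ, mul_assoc, e1, ih]
      obtain ⟨n, -, hn⟩ := Nat.exists_mul_mod_eq_one_of_coprime (n := j + 1) (k := 17)
        ((Nat.coprime_comm.1 ((Nat.Prime.coprime_iff_not_dvd (by norm_num)).2
          (Nat.not_dvd_of_pos_of_lt (by omega) (by simp at hj; omega))))) (by norm_num)
      have e3 : c * Y = Y := by
        have := e2 n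
        rwa [← pow_mul, ← Nat.div_add_mod ((j + 1) * n) 17, hn, pow_add, pow_mul, hc, one_pow,
          one_mul, pow_one] at this
      have e4 : Commute (avg c) Y :=
        ((commute_avg hEa).mul_right (hEb.pow_right _)).mul_right (commute_avg hEa)
      rw [mul_sub, mul_one, ← e4.eq, avg_mul_of e3, sub_self]
    rw [avg.eq_def b, Finset.sum_range_succ', mul_smul_comm, smul_mul_assoc, smul_mul_assoc, mul_add,
      add_mul, add_mul, Finset.mul_sum, Finset.sum_mul, Finset.sum_mul, Finset.sum_eq_zero h2,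
      pow_zero, mul_one, avg_mul_of (mul_avg ha), zero_add]

end avg

variable {K : Type*} [NormedAddCommGroup K] [InnerProductSpace ℂ K] [CompleteSpace K]

lemma re_inner_proj {A : K →L[ℂ] K} (hA : IsStarProjection A) (w : K) :
    (⟪w, A w⟫_ℂ).re = ‖A w‖ ^ 2 := by
  have := NAI.norm_rep_sq (StarAlgHom.id ℂ _) A w
  rw [hA.isSelfAdjoint.star_eq, hA.isIdempotentElem.eq] at this
  exact this.symm

lemma norm_add_proj {A B : K →L[ℂ] K} (hA : IsStarProjection A) (hB : IsStarProjection B)
    (h : ‖A * B‖ ≤ 1 / 4) : ‖A + B‖ ≤ 5 / 4 := by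
  refine ContinuousLinearMap.opNorm_le_bound _ (by norm_num) fun w => ?_
  have e1 : ⟪A w, B w⟫_ℂ = ⟪A w, (A * B) (B w)⟫_ℂ := by
    have := NAI.inner_rep_right (StarAlgHom.id ℂ _) A (A w) (B (B w))
    rw [hA.isSelfAdjoint.star_eq] at this
    change ⟪A w, (A * B) (B w)⟫_ℂ = ⟪(A * A) w, (B * B) w⟫_ℂ at this
    rw [this, hA.isIdempotentElem.eq, hB.isIdempotentElem.eq]
  have e2 : (⟪A w, B w⟫_ℂ).re ≤ ‖A w‖ * (1 / 4 * ‖B w‖) := by
    rw [e1]
    refine (Complex.re_le_norm _).trans ((norm_inner_le_norm _ _).trans ?_)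
    gcongr
    exact ((A * B).le_opNorm _).trans (by gcongr)
  have e3 := norm_add_sq (𝕜 := ℂ) (A w) (B w)
  have e4 : ‖A w‖ ^ 2 + ‖B w‖ ^ 2 ≤ ‖w‖ * ‖A w + B w‖ := by
    rw [← re_inner_proj hA, ← re_inner_proj hB, ← Complex.add_re, ← inner_add_right]
    exact (Complex.re_le_norm _).trans (norm_inner_le_norm _ _)
  change ‖A w + B w‖ ≤ _
  change _ = _ + 2 * (⟪A w, B w⟫_ℂ).re + _ at e3
  by_contra hlt
  push Not at hlt
  nlinarith [sq_nonneg (‖A w‖ - ‖B w‖), norm_nonneg w]

lemma angle {P Q E : K →L[ℂ] K} (hP : IsStarProjection P) (hQ : IsStarProjection Q)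
    (hE : IsStarProjection E) (hEP : Commute E P) (hEQ : Commute E Q)
    (h1 : P * Q * E = Q * P * E) (h2 : P * Q * P * (1 - E) = (17 : ℂ)⁻¹ • (P * (1 - E))) :
    0 ≤ (1 - P) * (1 - Q) + (1 - Q) * (1 - P) + (1 / 4 : ℝ) • ((1 - P) + (1 - Q)) := by
  have hF := hE.one_sub
  have hFP : Commute P (1 - E) := (Commute.one_right P).sub_right hEP.symm
  have hFQ : Commute Q (1 - E) := (Commute.one_right Q).sub_right hEQ.symm
  have hA := hP.mul hF hFP
  have hB := hQ.mul hF hFQ
  have hEE := hE.isIdempotentElem.eq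
  have hPP := hP.isIdempotentElem.eq
  have hQQ := hQ.isIdempotentElem.eq
  have n1 : ‖P * (1 - E) * (Q * (1 - E))‖ ≤ 1 / 4 := by
    have : P * (1 - E) * (Q * (1 - E)) * star (P * (1 - E) * (Q * (1 - E))) =
        (17 : ℂ)⁻¹ • (P * (1 - E)) := by
      rw [star_mul, hA.isSelfAdjoint.star_eq, hB.isSelfAdjoint.star_eq, mul_assoc,
        ← mul_assoc (Q * _), hB.isIdempotentElem.eq, ← h2, mul_assoc P, mul_assoc Q,
        ← mul_assoc (1 - E) P, ← hFP.eq, mul_assoc P, hF.isIdempotentElem.eq,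
        ← mul_assoc (1 - E) Q, ← hFQ.eq, mul_assoc Q, ← mul_assoc (1 - E) P, ← hFP.eq,
        mul_assoc P, hF.isIdempotentElem.eq]
      simp only [mul_assoc]
    have h3 := congrArg norm this
    rw [CStarRing.norm_self_mul_star, norm_smul] at h3
    have := hA.norm_le
    simp only [norm_inv, Complex.norm_ofNat] at h3
    nlinarith [norm_nonneg (P * (1 - E) * (Q * (1 - E)))]
  set S := P * (1 - E) + Q * (1 - E) with hS
  have hSa : IsSelfAdjoint S := hA.isSelfAdjoint.add hB.isSelfAdjoint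
  have n2 : ∀ r : ℝ, 5 / 4 ≤ r → 0 ≤ r • (1 : K →L[ℂ] K) - S := fun r hr => by
    rw [sub_nonneg]
    refine hSa.le_algebraMap_norm_self.trans ?_
    rw [Algebra.algebraMap_eq_smul_one]
    exact smul_le_smul_of_nonneg_right ((norm_add_proj hA hB n1).trans hr) zero_le_one
  have n3 : 0 ≤ ((2 : ℝ) • 1 - S) * ((5 / 4 : ℝ) • 1 - S) :=
    Commute.mul_nonneg (n2 2 (by norm_num)) (n2 _ le_rfl) (by
      simp only [Commute, SemiconjBy, sub_mul, mul_sub, smul_mul_assoc, mul_smul_comm, one_mul,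
        mul_one]
      module)
  have n4 := star_left_conjugate_nonneg n3 (1 - E)
  have hP' := hP.one_sub.mul hE ((Commute.one_left E).sub_left hEP.symm)
  have hQ' := hQ.one_sub.mul hE ((Commute.one_left E).sub_left hEQ.symm)
  have e1 : ∀ X, E * (P * X) = P * (E * X) := fun X => by rw [← mul_assoc, hEP.eq, mul_assoc]
  have e2 : ∀ X, E * (Q * X) = Q * (E * X) := fun X => by rw [← mul_assoc, hEQ.eq, mul_assoc]
  have e3 : ∀ X, E * (E * X) = E * X := fun X => by rw [← mul_assoc, hEE]
  have e4 : ∀ X, P * (P * X) = P * X := fun X => by rw [← mul_assoc, hPP]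
  have e5 : ∀ X, Q * (Q * X) = Q * X := fun X => by rw [← mul_assoc, hQQ]
  have e6 : Q * (P * E) = P * (Q * E) := by rw [← mul_assoc, ← h1, mul_assoc]
  have n5 := Commute.mul_nonneg hP'.nonneg hQ'.nonneg (by
    simp only [Commute, SemiconjBy, sub_mul, mul_sub, one_mul, mul_assoc, e1, e2, hEE, e6]
    abel)
  have n6 := smul_nonneg (by norm_num : (0 : ℝ) ≤ 1 / 4) (add_nonneg hP'.nonneg hQ'.nonneg)
  convert add_nonneg (add_nonneg n4 (add_nonneg n5 n5)) n6 using 1
  simp only [hF.isSelfAdjoint.star_eq, hS, sub_mul, mul_sub, add_mul, mul_add, one_mul, mul_one,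
    mul_assoc, smul_mul_assoc, mul_smul_comm, e1, e2, e4, e5, e6, hEE, hPP, hQQ, hEP.eq, hEQ.eq]
  module

theorem kazh {Λ : Type*} [Group Λ] (g : Fin 4 → Λ) (hg : ∀ i, g i ^ 17 = 1)
    (hc : ∀ i j, i < j → Heis (g i) (g j) ∨ Heis (g j) (g i)) (ρ : Λ →* (K →L[ℂ] K))
    (hρ : ∀ x, star (ρ x) * ρ x = 1) (v : K) {δ : ℝ} (hv : ∀ i, ‖ρ (g i) v - v‖ ≤ δ) :
    ∃ z, (∀ i, ρ (g i) z = z) ∧ ‖v - z‖ ≤ 68 * δ := by
  have hδ : 0 ≤ δ := (norm_nonneg _).trans (hv 0)
  have hg' : ∀ i, ρ (g i) ^ 17 = 1 := fun i => by rw [← map_pow, hg, map_one]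
  let P := fun i => avg (ρ (g i))
  have hP : ∀ i, IsStarProjection (P i) := fun i => avg_proj (hg' i) (hρ _)
  have h0 : ∀ i j, Heis (g i) (g j) → 0 ≤ (1 - P i) * (1 - P j) + (1 - P j) * (1 - P i) +
      (1 / 4 : ℝ) • ((1 - P i) + (1 - P j)) := by
    rintro i j ⟨c, c1, c2, c3, c4⟩
    have c1' : ρ c ^ 17 = 1 := by rw [← map_pow, c1, map_one]
    obtain ⟨k1, k2⟩ := heis_avg (hg' i) c1' (c2.map ρ) (c3.map ρ)
      (by rw [← map_mul, c4, map_mul, map_mul])
    exact angle (hP i) (hP j) (avg_proj c1' (hρ c))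
      (commute_avg (commute_avg (c2.map ρ).symm).symm)
      (commute_avg (commute_avg (c3.map ρ).symm).symm) k1 k2
  have h1 : ∀ i j, i < j → 0 ≤ (1 - P i) * (1 - P j) + (1 - P j) * (1 - P i) +
      (1 / 4 : ℝ) • ((1 - P i) + (1 - P j)) := fun i j hij =>
    (hc i j hij).elim (h0 i j) fun h => by
      have := h0 j i h
      rwa [add_comm (_ * _), add_comm (1 - P j)] at this
  set D : K →L[ℂ] K := ∑ i, (1 - P i) with hD
  have hD0 : 0 ≤ D := Finset.sum_nonneg fun i _ => (hP i).one_sub.nonneg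
  have h2 : 0 ≤ D * D - (1 / 4 : ℝ) • D := by
    convert add_nonneg (add_nonneg (add_nonneg (h1 0 1 (by decide)) (h1 0 2 (by decide)))
      (add_nonneg (h1 0 3 (by decide)) (h1 1 2 (by decide))))
      (add_nonneg (h1 1 3 (by decide)) (h1 2 3 (by decide))) using 1
    simp only [hD, Fin.sum_univ_four, add_mul, mul_add, fun i => (hP i).one_sub.isIdempotentElem.eq]
    module
  have h3 := Commute.mul_nonneg hD0 h2 (by
    simp only [Commute, SemiconjBy, sub_mul, mul_sub, smul_mul_assoc, mul_smul_comm, mul_assoc])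
  have hre : ∀ w, (⟪w, D w⟫_ℂ).re = ∑ i, ‖(1 - P i) w‖ ^ 2 := fun w => by
    simp only [hD, sum_apply, inner_sum, Complex.re_sum, re_inner_proj (hP _).one_sub]
  have hDs : ∀ x y, ⟪D x, y⟫_ℂ = ⟪x, D y⟫_ℂ := fun x y => by
    have := NAI.inner_rep_left (StarAlgHom.id ℂ _) D x y
    rwa [hD0.isSelfAdjoint.star_eq] at this
  have h4 : ∀ w ∈ D.range.topologicalClosure, 1 / 4 * ‖w‖ ^ 2 ≤ (⟪w, D w⟫_ℂ).re := by
    refine closure_minimal (t := {w | 1 / 4 * ‖w‖ ^ 2 ≤ (⟪w, D w⟫_ℂ).re}) ?_
      (isClosed_le (by fun_prop) (by fun_prop))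
    rintro _ ⟨u, rfl⟩
    have := ((ContinuousLinearMap.nonneg_iff_isPositive _).1 h3).re_inner_nonneg_right u
    rw [mul_apply_eq_comp, sub_apply, mul_apply_eq_comp, smul_apply, RCLike.re_to_complex,
      ← hDs, inner_sub_right, ← Complex.coe_smul, inner_smul_right, Complex.sub_re,
      Complex.re_ofReal_mul, inner_self_eq_norm_sq_to_K] at this
    change 1 / 4 * ‖D u‖ ^ 2 ≤ (⟪D u, D (D u)⟫_ℂ).re
    have e : ((‖D u‖ : ℂ) ^ 2).re = ‖D u‖ ^ 2 := by norm_cast
    exact sub_nonneg.1 (e ▸ this)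
  let V := D.rangeᗮ
  have hV : ∀ z ∈ V, ∀ i, (1 - P i) z = 0 := fun z hz i => by
    have := (Submodule.mem_orthogonal _ _).1 hz (D z) ⟨z, rfl⟩
    rw [hDs] at this
    have h5 := hre z
    rw [this, Complex.zero_re, eq_comm, Finset.sum_eq_zero_iff_of_nonneg fun i _ => by positivity] at h5
    simpa using h5 i (Finset.mem_univ i)
  refine ⟨V.starProjection v, fun i => ?_, ?_⟩
  · have := sub_eq_zero.1 (hV _ (V.starProjection_apply_mem v) i)
    change V.starProjection v = P i _ at this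
    rw [this, ← mul_apply_eq_comp, mul_avg (hg' i)]
  · have h5 := h4 _ (D.range.orthogonal_orthogonal_eq_closure ▸ V.sub_starProjection_mem_orthogonal v)
    have h6 : ∀ i, ‖(1 - P i) (v - V.starProjection v)‖ ≤ 17 * δ := fun i => by
      rw [map_sub, hV _ (V.starProjection_apply_mem v), sub_zero]
      have iso : ∀ x y, ‖ρ x y‖ = ‖y‖ := fun x =>
        ((ρ x).norm_map_iff_adjoint_comp_self).2 (hρ x)
      have e : ∀ j : ℕ, ‖v - (ρ (g i) ^ j) v‖ ≤ j * δ := fun j => by
        induction j with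
        | zero => simp
        | succ j ih =>
          have := norm_add_le (v - ρ (g i) v) (ρ (g i) (v - (ρ (g i) ^ j) v))
          rw [iso, map_sub, sub_add_sub_cancel, norm_sub_rev v (ρ _ v)] at this
          rw [pow_succ', mul_apply_eq_comp]
          rw [Nat.cast_succ]; linarith [hv i]
      have : (1 - P i) v = (17 : ℂ)⁻¹ • ∑ j ∈ Finset.range 17, (v - (ρ (g i) ^ j) v) := by
        simp only [P, avg, sub_apply, smul_apply, sum_apply, one_apply_eq_self, Finset.sum_sub_distrib,
          smul_sub, Finset.sum_const, Finset.card_range]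
        rw [← Nat.cast_smul_eq_nsmul ℂ, smul_smul]; norm_num
      rw [this, norm_smul]
      have := norm_sum_le_of_le (Finset.range 17) (n := fun _ => 17 * δ) fun j hj => (e j).trans (by
        gcongr; exact_mod_cast (Finset.mem_range.1 hj).le)
      simp only [Finset.sum_const, Finset.card_range, nsmul_eq_mul] at this
      simp only [norm_inv, Complex.norm_ofNat]
      rw [Nat.cast_ofNat] at this
      linarith
    rw [hre] at h5
    have := Finset.sum_le_card_nsmul Finset.univ (fun i => ‖(1 - P i) (v - V.starProjection v)‖ ^ 2)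
      ((17 * δ) ^ 2) fun i _ => by gcongr; exact h6 i
    simp only [Finset.card_univ, Fintype.card_fin, nsmul_eq_mul] at this
    rw [Nat.cast_ofNat] at this
    exact abs_le_of_sq_le_sq' (by nlinarith) (by positivity) |>.2

end Crest.Agent.KE2
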