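import Crest.Prelude.Def_CStarEmbedding
import Crest.Agent.NAI.Model

/-! Universal C⋆-algebras on contractive generators and polynomial relations. -/

set_option autoImplicit false
open Filter Topology
open scoped ENNReal
open Crest.AnalysisR.CStarEmbedding

namespace Crest.Agent.KE2

noncomputable instance lpCStar {I : Type} {A : I → Type} [∀ i, Nontrivial (A i)]
    [∀ i, CStarAlgebra (A i)] : CStarAlgebra (lp A ∞) where

/-- Evaluation of star polynomials. -/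
noncomputable def ev {ι B : Type} [CStarAlgebra B] (b : ι → B) : FreeAlgebra ℂ (ι ⊕ ι) →ₐ[ℂ] B :=
  FreeAlgebra.lift ℂ (Sum.elim b fun i => star (b i))

lemma ev_map {ι B C : Type} [CStarAlgebra B] [CStarAlgebra C] (b : ι → B) (φ : B →⋆ₐ[ℂ] C)
    (f : FreeAlgebra ℂ (ι ⊕ ι)) : φ (ev b f) = ev (fun i => φ (b i)) f := by
  have : φ.toAlgHom.comp (ev b) = ev (fun i => φ (b i)) := by
    ext (i | i) <;> simp [ev, map_star]
  exact congrArg (fun F : _ →ₐ[ℂ] C => F f) this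

lemma exists_ev {ι B : Type} [CStarAlgebra B] (b : ι → B) {x : B}
    (hx : x ∈ StarAlgebra.adjoin ℂ (Set.range b)) : ∃ f, ev b f = x := by
  have : x ∈ (ev b).range := by
    refine (Algebra.adjoin_le ?_ : (StarAlgebra.adjoin ℂ (Set.range b)).toSubalgebra ≤ _) hx
    rintro y (⟨i, rfl⟩ | ⟨i, hi⟩)
    · exact ⟨FreeAlgebra.ι ℂ (.inl i), by simp [ev]⟩
    · exact ⟨FreeAlgebra.ι ℂ (.inr i), by simp [ev, hi]⟩
  exact this

/-- A nontrivial model. -/
structure Model (ι : Type) (Rel : Set (FreeAlgebra ℂ (ι ⊕ ι))) : Type 1 where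
  B : Type
  [i1 : CStarAlgebra B]
  [i2 : Nontrivial B]
  b : ι → B
  norm_le : ∀ i, ‖b i‖ ≤ 1
  rel : ∀ r ∈ Rel, ev b r = 0

instance {ι : Type} {Rel : Set (FreeAlgebra ℂ (ι ⊕ ι))} (M : Model ι Rel) : CStarAlgebra M.B := M.i1
instance {ι : Type} {Rel : Set (FreeAlgebra ℂ (ι ⊕ ι))} (M : Model ι Rel) : Nontrivial M.B := M.i2

lemma exists_hom {ι A B : Type} [CStarAlgebra A] [CStarAlgebra B] (a : ι → A) (b : ι → B)
    (hgen : ∀ C : StarSubalgebra ℂ A, IsClosed (C : Set A) → (∀ i, a i ∈ C) → C = ⊤)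
    (hle : ∀ f, ‖ev b f‖ ≤ ‖ev a f‖) : ∃ φ : A →⋆ₐ[ℂ] B, ∀ i, φ (a i) = b i := by
  let C := (StarAlgebra.adjoin ℂ (Set.range fun i => (a i, b i))).topologicalClosure
  have hC : IsClosed (C : Set (A × B)) := StarSubalgebra.isClosed_topologicalClosure _
  have hCle : ∀ x ∈ C, ‖x.2‖ ≤ ‖x.1‖ := by
    refine closure_minimal (t := {x : A × B | ‖x.2‖ ≤ ‖x.1‖}) (fun x hx => ?_)
      (isClosed_le (by fun_prop) (by fun_prop))
    obtain ⟨f, rfl⟩ := exists_ev _ hx
    have h1 := ev_map (fun i => (a i, b i)) (StarAlgHom.fst ℂ A B) f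
    have h2 := ev_map (fun i => (a i, b i)) (StarAlgHom.snd ℂ A B) f
    exact (congrArg norm h2).trans_le ((hle f).trans (congrArg norm h1).ge)
  let F := (StarAlgHom.fst ℂ A B).comp C.subtype
  have hF : Function.Injective F := by
    rw [injective_iff_map_eq_zero]
    intro x hx
    have h1 : x.1.1 = 0 := hx
    have h2 := hCle x.1 x.2
    rw [h1, norm_zero, norm_le_zero_iff] at h2
    exact Subtype.ext (Prod.ext h1 h2)
  have hm : ∀ i, (a i, b i) ∈ C := fun i => StarSubalgebra.le_topologicalClosure _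
    (StarAlgebra.subset_adjoin ℂ _ ⟨i, rfl⟩)
  have hF' : Function.Surjective F := by
    have := hgen F.range (NonUnitalStarAlgHom.isometry F hF).isClosedEmbedding.isClosed_range
      fun i => ⟨⟨_, hm i⟩, rfl⟩
    intro x
    exact (this ▸ StarSubalgebra.mem_top : x ∈ F.range)
  let e := StarAlgEquiv.ofBijective F ⟨hF, hF'⟩
  refine ⟨((StarAlgHom.snd ℂ A B).comp C.subtype).comp (e.symm : A →⋆ₐ[ℂ] C), fun i => ?_⟩
  have : e.symm (a i) = ⟨_, hm i⟩ := e.symm_apply_apply ⟨_, hm i⟩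
  change (e.symm (a i) : A × B).2 = _
  rw [this]

theorem exists_univ {ι : Type} (Rel : Set (FreeAlgebra ℂ (ι ⊕ ι))) (M₀ : Model ι Rel) :
    ∃ (A : Type) (_ : CStarAlgebra A) (a : ι → A), (∀ r ∈ Rel, ev a r = 0) ∧
      (StarAlgebra.adjoin ℂ (Set.range a)).topologicalClosure = ⊤ ∧
      ∀ (B : Type) [CStarAlgebra B] (b : ι → B), (∀ i, ‖b i‖ ≤ 1) → (∀ r ∈ Rel, ev b r = 0) →
        ∃ φ : A →⋆ₐ[ℂ] B, ∀ i, φ (a i) = b i := by
  have : ∀ p : FreeAlgebra ℂ (ι ⊕ ι) × ℝ, ∃ M : Model ι Rel,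
      ∀ M' : Model ι Rel, p.2 < ‖ev M'.b p.1‖ → p.2 < ‖ev M.b p.1‖ :=
    fun p => by
      by_cases h : ∃ M' : Model ι Rel, p.2 < ‖ev M'.b p.1‖
      · obtain ⟨M, hM⟩ := h
        exact ⟨M, fun _ _ => hM⟩
      · exact ⟨M₀, fun M' h' => absurd ⟨M', h'⟩ h⟩
  choose M hM using this
  let L := lp (fun p => (M p).B) ∞
  let l : ι → L := fun i => ⟨fun p => (M p).b i, memℓp_infty ⟨1, by
    rintro _ ⟨p, rfl⟩; exact (M p).norm_le i⟩⟩
  let pr : ∀ p, L →⋆ₐ[ℂ] (M p).B := fun p =>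
    { toFun := fun x => x p
      map_one' := rfl
      map_mul' := fun _ _ => rfl
      map_zero' := rfl
      map_add' := fun _ _ => rfl
      commutes' := fun _ => rfl
      map_star' := fun _ => rfl }
  let A := (StarAlgebra.adjoin ℂ (Set.range l)).topologicalClosure
  have hA : IsClosed (A : Set L) := StarSubalgebra.isClosed_topologicalClosure _
  let a : ι → A := fun i => ⟨l i, StarSubalgebra.le_topologicalClosure _
    (StarAlgebra.subset_adjoin ℂ _ ⟨i, rfl⟩)⟩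
  have hev : ∀ f p, (ev a f : L) p = ev (M p).b f := fun f p =>
    ev_map a ((pr p).comp A.subtype) f
  have hgen : ∀ C : StarSubalgebra ℂ A, IsClosed (C : Set A) → (∀ i, a i ∈ C) → C = ⊤ :=
    fun C hC hC1 => by
      have : A ≤ C.map A.subtype := by
        refine StarSubalgebra.topologicalClosure_minimal (StarAlgebra.adjoin_le ?_)
          (hA.isClosedEmbedding_subtypeVal.isClosedMap _ hC)
        rintro _ ⟨i, rfl⟩
        exact ⟨_, hC1 i, rfl⟩
      rw [eq_top_iff]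
      intro b _
      obtain ⟨c, hc, hcb⟩ := this b.2
      exact (Subtype.ext hcb : c = b) ▸ hc
  refine ⟨A, inferInstance, a, fun r hr => Subtype.ext (lp.ext (funext fun p => ?_)),
    hgen _ (StarSubalgebra.isClosed_topologicalClosure _) fun i =>
      StarSubalgebra.le_topologicalClosure _ (StarAlgebra.subset_adjoin ℂ _ ⟨i, rfl⟩),
    fun B _ b hb hb' => ?_⟩
  · rw [hev, (M p).rel r hr]; rfl
  have hle : ∀ f, ‖ev b f‖ ≤ ‖ev a f‖ := fun f => by
    rcases subsingleton_or_nontrivial B with h | h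
    · rw [Subsingleton.elim (ev b f) 0, norm_zero]; exact norm_nonneg _
    refine le_of_forall_lt fun r hr => ?_
    have := hM (f, r) ⟨B, b, hb, hb'⟩ hr
    rw [← hev] at this
    exact this.trans_le (lp.norm_apply_le_norm ENNReal.top_ne_zero _ _)
  exact exists_hom a b hgen hle

theorem exists_full (Γ : Type) [Group Γ] :
    ∃ (A : Type) (_ : CStarAlgebra A) (u : Γ →* unitary A), IsFullGroupCStar A u := by
  let x := fun i : Γ ⊕ Γ => FreeAlgebra.ι ℂ i
  let Rel : Set (FreeAlgebra ℂ (Γ ⊕ Γ)) := {r | (∃ g h, r = x (.inl g) * x (.inl h) - x (.inl (g * h))) ∨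
    (∃ g, r = x (.inr g) * x (.inl g) - 1) ∨ ∃ g, r = x (.inl g) * x (.inr g) - 1}
  obtain ⟨A, _, a, h1, h2, h3⟩ := exists_univ Rel ⟨ℂ, fun _ => 1, by simp, by
    rintro _ (⟨g, h, rfl⟩ | ⟨g, rfl⟩ | ⟨g, rfl⟩) <;> simp [ev, x]⟩
  let u : Γ → unitary A := fun g => ⟨a g,
    by simpa [ev, x, sub_eq_zero] using h1 _ (Or.inr (Or.inl ⟨g, rfl⟩)),
    by simpa [ev, x, sub_eq_zero] using h1 _ (Or.inr (Or.inr ⟨g, rfl⟩))⟩
  refine ⟨A, inferInstance, MonoidHom.mk' u fun g h => Subtype.ext ?_, h2, fun B _ w => ?_⟩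
  · have : a g * a h = a (g * h) := by simpa [ev, x, sub_eq_zero] using h1 _ (Or.inl ⟨g, h, rfl⟩)
    exact this.symm
  · refine h3 B (fun g => w g) (fun g => ?_) ?_
    · rcases subsingleton_or_nontrivial B with h | h
      · rw [Subsingleton.elim (w g : B) 0, norm_zero]; exact zero_le_one
      · exact (CStarRing.norm_coe_unitary _).le
    · rintro _ (⟨g, h, rfl⟩ | ⟨g, rfl⟩ | ⟨g, rfl⟩) <;> simp [ev, x]

lemma exists_basis (X : Type) : ∃ (H : Type) (_ : NormedAddCommGroup H) (_ : InnerProductSpace ℂ H)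
    (_ : CompleteSpace H) (b : X → H), Orthonormal ℂ b ∧ NAI.Total b := by
  let b : HilbertBasis X ℂ (lp (fun _ : X => ℂ) 2) := default
  exact ⟨_, _, _, inferInstance, b, b.orthonormal, fun z hz => b.repr.injective (by
    ext i; rw [b.repr_apply_apply, hz]; simp)⟩

lemma exists_graded : ∃ (H : Type) (_ : NormedAddCommGroup H) (_ : InnerProductSpace ℂ H)
    (_ : CompleteSpace H) (b : ℕ × ℤ → H) (t : Bool → H →L[ℂ] H), Orthonormal ℂ b ∧
    (∀ i, star (t i) * t i = 1) ∧ t true * star (t true) + t false * star (t false) = 1 ∧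
      ∀ i x, t i (b x) = b (Nat.bit i x.1, x.2 + 1) := by
  obtain ⟨H, _, _, _, b, ho, hb⟩ := exists_basis (ℕ × ℤ)
  have hbb : ∀ i j, inner ℂ (b i) (b j) = if i = j then 1 else 0 := orthonormal_iff_ite.1 ho
  have hbit : ∀ i j k l, Nat.bit i k = Nat.bit j l ↔ i = j ∧ k = l := fun i j k l => by
    cases i <;> cases j <;> simp [Nat.bit] <;> omega
  choose W hW using fun i : Bool => NAI.exists_isometry (y := fun x => b (Nat.bit i x.1, x.2 + 1)) hb
    fun k l => by simp [hbb, hbit, Prod.ext_iff]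
  let t : Bool → H →L[ℂ] H := fun i => (W i).toContinuousLinearMap
  have ht : ∀ i x, t i (b x) = b (Nat.bit i x.1, x.2 + 1) := hW
  have h1 : ∀ i j, star (t i) * t j = if i = j then 1 else 0 :=
    fun i j => hb.ext fun k => sub_eq_zero.1 (hb _ fun l => by
      rw [inner_sub_right, mul_apply_eq_comp, ContinuousLinearMap.star_eq_adjoint,
        ContinuousLinearMap.adjoint_inner_right, ht, ht, hbb, sub_eq_zero]
      by_cases h : i = j <;> simp [h, hbb, hbit, Prod.ext_iff])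
  refine ⟨H, _, _, inferInstance, b, t, ho, fun i => by simp [h1], hb.ext fun x => ?_, ht⟩
  have : b x = t x.1.bodd (b (x.1.div2, x.2 - 1)) := by simp [ht, Nat.bit_bodd_div2]
  have h2 : ∀ i, (t true * star (t true) + t false * star (t false)) * t i = t i := fun i => by
    cases i <;> simp [add_mul, mul_assoc, h1]
  rw [this, ← mul_apply_eq_comp, h2, one_apply_eq_self]

theorem exists_cuntz : ∃ (O : Type) (_ : CStarAlgebra O) (s₁ s₂ : O), IsCuntzTwo O s₁ s₂ := by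
  let x := fun i : Bool ⊕ Bool => FreeAlgebra.ι ℂ i
  let Rel : Set (FreeAlgebra ℂ (Bool ⊕ Bool)) := {r | (∃ i, r = x (.inr i) * x (.inl i) - 1) ∨
    r = x (.inl true) * x (.inr true) + x (.inl false) * x (.inr false) - 1}
  have hn : ∀ {B : Type} [CStarAlgebra B] (t : B), star t * t = 1 → ‖t‖ ≤ 1 := fun {B} _ t ht => by
    have := CStarRing.norm_star_mul_self (x := t)
    rw [ht] at this
    nlinarith [NAI.norm_one_le' (B := B), norm_nonneg t]
  obtain ⟨B, _, _, t₁, t₂, k1, k2, k3⟩ : ∃ (B : Type) (_ : CStarAlgebra B) (_ : Nontrivial B)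
      (t₁ t₂ : B), star t₁ * t₁ = 1 ∧ star t₂ * t₂ = 1 ∧ t₁ * star t₁ + t₂ * star t₂ = 1 := by
    obtain ⟨H, _, _, _, b, t, ho, k1, k2, -⟩ := exists_graded
    have : Nontrivial H := ⟨b 0, 0, ho.ne_zero 0⟩
    exact ⟨_, inferInstance, inferInstance, t true, t false, k1 _, k1 _, k2⟩
  have key : ∀ (B : Type) [CStarAlgebra B] (t₁ t₂ : B), star t₁ * t₁ = 1 → star t₂ * t₂ = 1 →
      t₁ * star t₁ + t₂ * star t₂ = 1 → (∀ i : Bool, ‖cond i t₁ t₂‖ ≤ 1) ∧
        ∀ r ∈ Rel, ev (fun i => cond i t₁ t₂) r = 0 := fun B _ t₁ t₂ k1 k2 k3 =>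
    ⟨by rintro (_ | _); exacts [hn _ k2, hn _ k1], by
      rintro _ (⟨_ | _, rfl⟩ | rfl) <;> simp [ev, x, k1, k2, k3]⟩
  obtain ⟨A, _, a, h1, h2, h3⟩ := exists_univ Rel ⟨B, fun i => cond i t₁ t₂,
    (key B t₁ t₂ k1 k2 k3).1, (key B t₁ t₂ k1 k2 k3).2⟩
  refine ⟨A, inferInstance, a true, a false,
    by simpa [ev, x, sub_eq_zero] using h1 _ (Or.inl ⟨true, rfl⟩),
    by simpa [ev, x, sub_eq_zero] using h1 _ (Or.inl ⟨false, rfl⟩),
    by simpa [ev, x, sub_eq_zero] using h1 _ (Or.inr rfl), ?_, fun B _ t₁ t₂ k1 k2 k3 => ?_⟩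
  · rw [← h2]; congr 2; ext y; simp [or_comm]
  · obtain ⟨φ, hφ⟩ := h3 B _ (key B t₁ t₂ k1 k2 k3).1 (key B t₁ t₂ k1 k2 k3).2
    exact ⟨φ, hφ true, hφ false⟩

end Crest.Agent.KE2
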